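import Vale.Agent.P299.H835.IX.FockD
import Vale.Agent.P299.H954.Tensor

/-!
# Local calculus: the operators `D'`, `δ` on `(*,0)`-forms with values in `-kK`

`w` is the coefficient matrix of a Kähler metric in a chart; the metric of `-K` is `det w`.
-/

open scoped Manifold ContDiff ComplexOrder Topology Matrix
open Vale.Agent.P272.K Vale.Agent.P272.K.C2 Vale.Agent.P299.H954

set_option linter.unusedSectionVars false

noncomputable section

namespace Vale.Agent.P299.IX

section vec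

variable {n : ℕ} {ι κ : Type*} {a b : Cm n → ι → ℂ} {z : Cm n} {k l : Fin n} {m : WithTop ℕ∞}

/-- `∂/∂z_k` of a vector valued function -/
def DV (k : Fin n) (a : Cm n → ι → ℂ) (z : Cm n) : ι → ℂ := fun i => dz k (fun y => a y i) z

/-- `∂/∂z̄_k` of a vector valued function -/
def DVb (k : Fin n) (a : Cm n → ι → ℂ) (z : Cm n) : ι → ℂ := fun i => dzb k (fun y => a y i) z

/-- componentwise `C^m` -/
def VC (m : WithTop ℕ∞) (a : Cm n → ι → ℂ) (z : Cm n) : Prop :=
  ∀ i, ContDiffAt ℝ m (fun y => a y i) z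

theorem VC.d (h : VC m a z) (hm : m ≠ 0) (i : ι) : DifferentiableAt ℝ (fun y => a y i) z :=
  (h i).differentiableAt hm

theorem VC.mono {m' : WithTop ℕ∞} (h : VC m a z) (hm : m' ≤ m) : VC m' a z :=
  fun i => (h i).of_le hm

theorem VC.DV {m' : WithTop ℕ∞} (h : VC m a z) (hm : m' + 1 ≤ m) : VC m' (DV k a) z :=
  fun i => contDiffAt_dz k (h i) hm

theorem VC.DVb {m' : WithTop ℕ∞} (h : VC m a z) (hm : m' + 1 ≤ m) : VC m' (DVb k a) z :=
  fun i => contDiffAt_dzb k (h i) hm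

theorem VC.eventually [Finite ι] {q : ℕ} (h : VC q a z) : ∀ᶠ y in 𝓝 z, VC q a y :=
  Filter.eventually_all.2 fun i => (h i).eventually (by simp)

theorem DV_congr (h : a =ᶠ[𝓝 z] b) : DV k a z = DV k b z := by
  ext i; exact dz_congr k (by filter_upwards [h] with y hy; rw [hy])

theorem DVb_congr (h : a =ᶠ[𝓝 z] b) : DVb k a z = DVb k b z := by
  ext i; exact dzb_congr k (by filter_upwards [h] with y hy; rw [hy])

theorem DV_add (ha : VC 1 a z) (hb : VC 1 b z) :
    DV k (fun y => a y + b y) z = DV k a z + DV k b z := by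
  ext i; exact dz_add k (ha.d one_ne_zero_inf i) (hb.d one_ne_zero_inf i)

theorem DVb_add (ha : VC 1 a z) (hb : VC 1 b z) :
    DVb k (fun y => a y + b y) z = DVb k a z + DVb k b z := by
  ext i; exact dzb_add k (ha.d one_ne_zero_inf i) (hb.d one_ne_zero_inf i)

theorem DV_neg : DV k (fun y => -a y) z = -DV k a z := by
  ext i; exact dz_neg k

theorem DVb_neg : DVb k (fun y => -a y) z = -DVb k a z := by
  ext i; exact dzb_neg k

theorem DV_smul {f : Cm n → ℂ} (hf : ContDiffAt ℝ 1 f z) (ha : VC 1 a z) :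
    DV k (fun y => f y • a y) z = dz k f z • a z + f z • DV k a z := by
  ext i
  exact dz_mul k (hf.differentiableAt one_ne_zero_inf) (ha.d one_ne_zero_inf i)

theorem DVb_smul {f : Cm n → ℂ} (hf : ContDiffAt ℝ 1 f z) (ha : VC 1 a z) :
    DVb k (fun y => f y • a y) z = dzb k f z • a z + f z • DVb k a z := by
  ext i
  exact dzb_mul k (hf.differentiableAt one_ne_zero_inf) (ha.d one_ne_zero_inf i)

variable [Fintype ι]

theorem DV_mulVec {M : Cm n → Matrix κ ι ℂ} (hM : MC 1 M z) (ha : VC 1 a z) :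
    DV k (fun y => M y *ᵥ a y) z = DM k M z *ᵥ a z + M z *ᵥ DV k a z := by
  ext i
  simp only [DV, Matrix.mulVec, dotProduct, Pi.add_apply, DM_apply]
  rw [dz_sum k _ (fun q _ => ((hM i q).differentiableAt one_ne_zero_inf).fun_mul
    (ha.d one_ne_zero_inf q)), ← Finset.sum_add_distrib]
  exact Finset.sum_congr rfl fun q _ => dz_mul k ((hM i q).differentiableAt one_ne_zero_inf)
    (ha.d one_ne_zero_inf q)

theorem DVb_mulVec {M : Cm n → Matrix κ ι ℂ} (hM : MC 1 M z) (ha : VC 1 a z) :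
    DVb k (fun y => M y *ᵥ a y) z = DMb k M z *ᵥ a z + M z *ᵥ DVb k a z := by
  ext i
  simp only [DVb, Matrix.mulVec, dotProduct, Pi.add_apply, DMb_apply]
  rw [dzb_sum k _ (fun q _ => ((hM i q).differentiableAt one_ne_zero_inf).fun_mul
    (ha.d one_ne_zero_inf q)), ← Finset.sum_add_distrib]
  exact Finset.sum_congr rfl fun q _ => dzb_mul k ((hM i q).differentiableAt one_ne_zero_inf)
    (ha.d one_ne_zero_inf q)

theorem VC.mulVec {M : Cm n → Matrix κ ι ℂ} (hM : MC m M z) (ha : VC m a z) :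
    VC m (fun y => M y *ᵥ a y) z := by
  intro i
  simp only [Matrix.mulVec, dotProduct]
  exact ContDiffAt.sum fun q _ => (hM i q).mul (ha q)

theorem VC.add (ha : VC m a z) (hb : VC m b z) : VC m (fun y => a y + b y) z :=
  fun i => (ha i).add (hb i)

theorem VC.neg (ha : VC m a z) : VC m (fun y => -a y) z := fun i => (ha i).neg

theorem VC.smul {f : Cm n → ℂ} (hf : ContDiffAt ℝ m f z) (ha : VC m a z) :
    VC m (fun y => f y • a y) z := fun i => hf.mul (ha i)

theorem VC.sum {τ : Type*} (s : Finset τ) {F : τ → Cm n → ι → ℂ}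
    (h : ∀ i ∈ s, VC m (F i) z) : VC m (fun y => ∑ i ∈ s, F i y) z := by
  intro i
  simp only [Finset.sum_apply]
  exact ContDiffAt.sum fun t ht => h t ht i

theorem DV_sum {τ : Type*} (s : Finset τ) {F : τ → Cm n → ι → ℂ}
    (h : ∀ i ∈ s, VC 1 (F i) z) : DV k (fun y => ∑ i ∈ s, F i y) z = ∑ i ∈ s, DV k (F i) z := by
  ext i
  simp only [DV, Finset.sum_apply]
  exact dz_sum k s fun t ht => (h t ht).d one_ne_zero_inf i

theorem DVb_sum {τ : Type*} (s : Finset τ) {F : τ → Cm n → ι → ℂ}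
    (h : ∀ i ∈ s, VC 1 (F i) z) : DVb k (fun y => ∑ i ∈ s, F i y) z = ∑ i ∈ s, DVb k (F i) z := by
  ext i
  simp only [DVb, Finset.sum_apply]
  exact dzb_sum k s fun t ht => (h t ht).d one_ne_zero_inf i

/-- `a · conj b` -/
def pr (a b : ι → ℂ) : ℂ := ∑ i, a i * (starRingEnd ℂ) (b i)

theorem pr_add_left (a a' b : ι → ℂ) : pr (a + a') b = pr a b + pr a' b := by
  simp [pr, add_mul, Finset.sum_add_distrib]

theorem pr_add_right (a b b' : ι → ℂ) : pr a (b + b') = pr a b + pr a b' := by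
  simp [pr, mul_add, Finset.sum_add_distrib]

theorem pr_neg_left (a b : ι → ℂ) : pr (-a) b = -pr a b := by
  simp [pr, Finset.sum_neg_distrib]

theorem pr_neg_right (a b : ι → ℂ) : pr a (-b) = -pr a b := by
  simp [pr, Finset.sum_neg_distrib]

theorem pr_smul_left (c : ℂ) (a b : ι → ℂ) : pr (c • a) b = c * pr a b := by
  simp [pr, Finset.mul_sum, mul_assoc]

theorem pr_smul_right (c : ℂ) (a b : ι → ℂ) : pr a (c • b) = (starRingEnd ℂ) c * pr a b := by
  simp only [pr, Pi.smul_apply, smul_eq_mul, map_mul, Finset.mul_sum]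
  exact Finset.sum_congr rfl fun _ _ => by ring

theorem pr_zero_left (b : ι → ℂ) : pr 0 b = 0 := by simp [pr]

theorem pr_zero_right (a : ι → ℂ) : pr a 0 = 0 := by simp [pr]

theorem pr_sum_left {τ : Type*} (s : Finset τ) (F : τ → ι → ℂ) (b : ι → ℂ) :
    pr (∑ i ∈ s, F i) b = ∑ i ∈ s, pr (F i) b := by
  simp only [pr, Finset.sum_apply, Finset.sum_mul]
  exact Finset.sum_comm

theorem pr_sum_right {τ : Type*} (s : Finset τ) (F : τ → ι → ℂ) (a : ι → ℂ) :
    pr a (∑ i ∈ s, F i) = ∑ i ∈ s, pr a (F i) := by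
  simp only [pr, Finset.sum_apply, map_sum, Finset.mul_sum]
  exact Finset.sum_comm

theorem pr_conj (a b : ι → ℂ) : (starRingEnd ℂ) (pr a b) = pr b a := by
  simp only [pr, map_sum, map_mul, Complex.conj_conj]
  exact Finset.sum_congr rfl fun _ _ => mul_comm _ _

theorem pr_mulVec_left [Fintype κ] (M : Matrix ι κ ℂ) (a : κ → ℂ) (b : ι → ℂ) :
    pr (M *ᵥ a) b = pr a (Mᴴ *ᵥ b) := by
  simp only [pr, Matrix.mulVec, dotProduct, Finset.sum_mul, map_sum, map_mul, Finset.mul_sum,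
    Matrix.conjTranspose_apply]
  rw [Finset.sum_comm]
  refine Finset.sum_congr rfl fun _ _ => Finset.sum_congr rfl fun _ _ => ?_
  rw [show (starRingEnd ℂ) (star (M _ _)) = M _ _ from star_star _]
  ring

theorem pr_mulVec_right [Fintype κ] (M : Matrix ι κ ℂ) (a : ι → ℂ) (b : κ → ℂ) :
    pr a (M *ᵥ b) = pr (Mᴴ *ᵥ a) b := by
  rw [pr_mulVec_left, Matrix.conjTranspose_conjTranspose]

theorem dz_pr (ha : VC 1 a z) (hb : VC 1 b z) :
    dz k (fun y => pr (a y) (b y)) z = pr (DV k a z) (b z) + pr (a z) (DVb k b z) := by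
  have one := one_ne_zero_inf
  simp only [pr]
  rw [dz_sum k _ (fun q _ => (ha.d one q).fun_mul (differentiableAt_conj (hb.d one q))),
    ← Finset.sum_add_distrib]
  refine Finset.sum_congr rfl fun q _ => ?_
  rw [dz_mul k (ha.d one q) (differentiableAt_conj (hb.d one q)), dz_conj k (hb.d one q)]
  rfl

theorem contDiffAt_pr (ha : VC m a z) (hb : VC m b z) :
    ContDiffAt ℝ m (fun y => pr (a y) (b y)) z :=
  ContDiffAt.sum fun q _ => (ha q).mul (contDiffAt_conj (hb q))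

end vec

section alg

variable {n : ℕ}

theorem lam_iot {J : Matrix (Fin n) (Fin n) ℂ} (hJ : IsUnit J.det) (l : Fin n) :
    lam J * iot l = (∑ p, J⁻¹ l p • iot p) * lam J := by
  rw [Matrix.sum_mul]
  simp only [Matrix.smul_mul, iot_lam, Matrix.mul_sum, Matrix.mul_smul, Finset.smul_sum,
    smul_smul]
  rw [Finset.sum_comm]
  have : ∀ q, ∑ p, (J⁻¹ l p * J p q) • (lam J * iot q) = (J⁻¹ * J) l q • (lam J * iot q) := by
    intro q
    rw [← Finset.sum_smul, Matrix.mul_apply]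
  simp only [this, Matrix.nonsing_inv_mul _ hJ, Matrix.one_apply, ite_smul, one_smul, zero_smul]
  simp

theorem lam_dlam {J : Matrix (Fin n) (Fin n) ℂ} (hJ : IsUnit J.det)
    (A : Matrix (Fin n) (Fin n) ℂ) : lam J * dlam A = dlam (J * A * J⁻¹) * lam J := by
  have h1 : ∀ a l, lam J * (eps a * iot l) =
      (∑ p, ∑ q, (J p a * J⁻¹ l q) • (eps p * iot q)) * lam J := by
    intro a l
    rw [← Matrix.mul_assoc, lam_eps, Matrix.mul_assoc, lam_iot hJ, ← Matrix.mul_assoc,
      Matrix.sum_mul]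
    congr 1
    refine Finset.sum_congr rfl fun p _ => ?_
    rw [Matrix.mul_sum]
    refine Finset.sum_congr rfl fun q _ => ?_
    rw [Matrix.smul_mul, Matrix.mul_smul, smul_smul]
  unfold dlam
  simp only [Matrix.mul_sum, Matrix.mul_smul, h1, Matrix.sum_mul, Matrix.smul_mul,
    Finset.smul_sum, smul_smul]
  calc ∑ a, ∑ l, ∑ p, ∑ q, (A a l * (J p a * J⁻¹ l q)) • (eps p * iot q * lam J)
      = ∑ p, ∑ q, ∑ a, ∑ l, (A a l * (J p a * J⁻¹ l q)) • (eps p * iot q * lam J) := by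
        have : ∀ a, ∑ l, ∑ p, ∑ q, (A a l * (J p a * J⁻¹ l q)) • (eps p * iot q * lam J) =
            ∑ p, ∑ q, ∑ l, (A a l * (J p a * J⁻¹ l q)) • (eps p * iot q * lam J) := by
          intro a
          rw [Finset.sum_comm]
          exact Finset.sum_congr rfl fun p _ => Finset.sum_comm
        simp only [this]
        rw [Finset.sum_comm]
        exact Finset.sum_congr rfl fun p _ => Finset.sum_comm
    _ = _ := by
        refine Finset.sum_congr rfl fun p _ => Finset.sum_congr rfl fun q _ => ?_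
        simp only [← Finset.sum_smul]
        congr 1
        rw [Matrix.mul_apply]
        simp only [Matrix.mul_apply, Finset.sum_mul]
        rw [Finset.sum_comm]
        exact Finset.sum_congr rfl fun l _ => Finset.sum_congr rfl fun a _ => by ring

theorem dlam_add (A B : Matrix (Fin n) (Fin n) ℂ) : dlam (A + B) = dlam A + dlam B := by
  simp [dlam, add_smul, Finset.sum_add_distrib]

theorem dlam_neg (A : Matrix (Fin n) (Fin n) ℂ) : dlam (-A) = -dlam A := by
  simp [dlam, Finset.sum_neg_distrib]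

/-- antisymmetric times symmetric -/
theorem sum_eps_symm {S : Fin n → Fin n → Matrix (FI n) (FI n) ℂ} (hS : ∀ k l, S k l = S l k) :
    ∑ k, ∑ l, eps k * eps l * S k l = 0 := by
  have h : ∑ k, ∑ l, eps k * eps l * S k l = -∑ k, ∑ l, eps k * eps l * S k l := by
    conv_lhs => rw [Finset.sum_comm]
    rw [← Finset.sum_neg_distrib]
    refine Finset.sum_congr rfl fun l _ => ?_
    rw [← Finset.sum_neg_distrib]
    refine Finset.sum_congr rfl fun k _ => ?_
    rw [eps_eps k l, hS k l, Matrix.neg_mul]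
  have h3 : ∀ X : Matrix (FI n) (FI n) ℂ, X = -X → X = 0 := by
    intro X hX
    ext i j
    have h4 := congrFun (congrFun hX i) j
    rw [Matrix.neg_apply] at h4
    exact self_eq_neg.1 h4
  exact h3 _ h

/-- the Kähler identity behind the formal adjointness -/
theorem sum_trace_eps {Γ : Fin n → Matrix (Fin n) (Fin n) ℂ}
    (hΓ : ∀ l a m, Γ l a m = Γ a l m) :
    ∑ l, (Γ l).trace • eps l = ∑ l, dlam (Γ l) * eps l := by
  have h1 : ∀ l, dlam (Γ l) * eps l = (∑ a, Γ l a l • eps a) -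
      ∑ a, ∑ m, Γ l a m • (eps a * eps l * iot m) := by
    intro l
    rw [dlam, Matrix.sum_mul, ← Finset.sum_sub_distrib]
    refine Finset.sum_congr rfl fun a _ => ?_
    rw [Matrix.sum_mul]
    have : ∀ m, Γ l a m • (eps a * iot m) * eps l =
        (if m = l then Γ l a m • eps a else 0) - Γ l a m • (eps a * eps l * iot m) := by
      intro m
      have h := car m l
      have h2 : iot m * eps l = (if m = l then 1 else 0) - eps l * iot m := by
        rw [← h]; abel
      rw [Matrix.smul_mul, Matrix.mul_assoc, h2, Matrix.mul_sub, smul_sub, ← Matrix.mul_assoc]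
      split_ifs <;> simp
    simp only [this, Finset.sum_sub_distrib]
    congr 1
    simp
  simp only [h1, Finset.sum_sub_distrib]
  have h2 : ∑ l, ∑ a, ∑ m, Γ l a m • (eps a * eps l * iot m) = 0 := by
    have h3 : ∀ l a, ∑ m, Γ l a m • (eps a * eps l * iot m) =
        eps a * eps l * ∑ m, Γ l a m • iot m := by
      intro l a
      rw [Matrix.mul_sum]
      exact Finset.sum_congr rfl fun m _ => by rw [Matrix.mul_smul]
    simp only [h3]
    rw [Finset.sum_comm]
    exact sum_eps_symm fun k l => by simp only [hΓ k l]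
  rw [h2, sub_zero, Finset.sum_comm]
  refine Finset.sum_congr rfl fun a _ => ?_
  rw [← Finset.sum_smul, Matrix.trace]
  congr 1
  exact Finset.sum_congr rfl fun l _ => hΓ a l l

end alg

section ops

variable {n : ℕ}

/-- data of a Kähler metric near a point of a chart -/
structure KAt (w : Cm n → Matrix (Fin n) (Fin n) ℂ) (z : Cm n) : Prop where
  smooth : ∀ᶠ y in 𝓝 z, MC ∞ w y
  pos : ∀ᶠ y in 𝓝 z, (w y).PosDef
  closed : ∀ᶠ y in 𝓝 z, ∀ i j k, dz k (fun y => w y i j) y = dz i (fun y => w y k j) y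

/-- `Γ_l = ∂_l w w⁻¹` -/
def Gam (l : Fin n) (w : Cm n → Matrix (Fin n) (Fin n) ℂ) (z : Cm n) : Matrix (Fin n) (Fin n) ℂ :=
  DM l w z * (w z)⁻¹

/-- `∂_l log det w` -/
def tG (l : Fin n) (w : Cm n → Matrix (Fin n) (Fin n) ℂ) (z : Cm n) : ℂ := (Gam l w z).trace

/-- `D'` on `(*,0)`-forms with values in `-kK` -/
def Dp (k : ℕ) (w : Cm n → Matrix (Fin n) (Fin n) ℂ) (a : Cm n → FI n → ℂ) (z : Cm n) :
    FI n → ℂ := ∑ l, eps l *ᵥ (DV l a z + (k * tG l w z) • a z)

/-- adjoint of `eps b` -/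
def epd (b : Fin n) (w : Cm n → Matrix (Fin n) (Fin n) ℂ) (z : Cm n) : Matrix (FI n) (FI n) ℂ :=
  ∑ l, (w z)⁻¹ b l • iot l

/-- `δ = - Σ ε_b^† ∂̄_b` -/
def De (w : Cm n → Matrix (Fin n) (Fin n) ℂ) (a : Cm n → FI n → ℂ) (z : Cm n) : FI n → ℂ :=
  -∑ b, epd b w z *ᵥ DVb b a z

/-- metric on forms -/
def Ld (w : Cm n → Matrix (Fin n) (Fin n) ℂ) (z : Cm n) : Matrix (FI n) (FI n) ℂ :=
  lam (w z)⁻¹

/-- weight times volume density -/
def rho (k : ℕ) (w : Cm n → Matrix (Fin n) (Fin n) ℂ) (z : Cm n) : ℂ := (w z).det ^ (k + 1)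

/-- Hermitian product times volume density -/
def hp (k : ℕ) (w : Cm n → Matrix (Fin n) (Fin n) ℂ) (z : Cm n) (u v : FI n → ℂ) : ℂ :=
  rho k w z * pr (Ld w z *ᵥ u) v

variable {w : Cm n → Matrix (Fin n) (Fin n) ℂ} {z : Cm n} {k : ℕ} {l : Fin n}

theorem KAt.posz (h : KAt w z) : (w z).PosDef := h.pos.self_of_nhds

theorem KAt.det0 (h : KAt w z) : (w z).det ≠ 0 := h.posz.det_pos.ne'

theorem KAt.unit (h : KAt w z) : IsUnit (w z).det := isUnit_iff_ne_zero.2 h.det0

theorem KAt.eventually (h : KAt w z) : ∀ᶠ y in 𝓝 z, KAt w y := by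
  filter_upwards [h.smooth.eventually_nhds, h.pos.eventually_nhds, h.closed.eventually_nhds]
    with y h1 h2 h3 using ⟨h1, h2, h3⟩

theorem KAt.sm (h : KAt w z) : MC ∞ w z := h.smooth.self_of_nhds

theorem KAt.MC (h : KAt w z) (q : ℕ) : MC q w z := h.sm.mono (by exact_mod_cast le_top)

theorem KAt.inv (h : KAt w z) : C2.MC ∞ (fun y => (w y)⁻¹) z := h.sm.inv h.det0

theorem inf_add_one : (∞ : WithTop ℕ∞) + 1 ≤ ∞ := le_of_eq rfl

theorem MC_Gam (h : KAt w z) : C2.MC ∞ (Gam l w) z := (h.sm.DM inf_add_one).mul h.inv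

theorem contDiffAt_tG (h : KAt w z) : ContDiffAt ℝ ∞ (tG l w) z := (MC_Gam h).trace

theorem MC_Ld (h : KAt w z) : C2.MC ∞ (Ld w) z := MC_lam h.inv

theorem contDiffAt_rho (h : KAt w z) : ContDiffAt ℝ ∞ (rho k w) z := h.sm.det.pow _

theorem MC_const {ι κ : Type*} {m : WithTop ℕ∞} (A : Matrix ι κ ℂ) :
    C2.MC m (fun _ : Cm n => A) z := fun _ _ => contDiffAt_const

theorem MC_sum {ι κ τ : Type*} {m : WithTop ℕ∞} (s : Finset τ) {F : τ → Cm n → Matrix ι κ ℂ}
    (h : ∀ i ∈ s, C2.MC m (F i) z) : C2.MC m (fun y => ∑ i ∈ s, F i y) z := by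
  intro i j
  simp only [Matrix.sum_apply]
  exact ContDiffAt.sum fun t ht => h t ht i j

theorem MC_smul {ι κ : Type*} {m : WithTop ℕ∞} {f : Cm n → ℂ} {F : Cm n → Matrix ι κ ℂ}
    (hf : ContDiffAt ℝ m f z) (h : C2.MC m F z) : C2.MC m (fun y => f y • F y) z :=
  fun i j => hf.mul (h i j)

theorem MC_epd (h : KAt w z) (b : Fin n) : C2.MC ∞ (epd b w) z :=
  MC_sum _ fun l _ => MC_smul (h.inv b l) (MC_const _)

theorem Gam_symm (h : KAt w z) (l a m : Fin n) : Gam l w z a m = Gam a w z l m := by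
  unfold Gam
  rw [Matrix.mul_apply, Matrix.mul_apply]
  refine Finset.sum_congr rfl fun c _ => ?_
  have := h.closed.self_of_nhds a c l
  rw [DM_apply, DM_apply, this]

theorem dz_det' (h : KAt w z) : dz l (fun y => (w y).det) z = tG l w z * (w z).det := by
  rw [C2.dz_det ((h.MC 1).md (by norm_num)) h.det0, tG, Gam, Matrix.trace_mul_comm, mul_comm]

theorem dz_rho (h : KAt w z) : dz l (rho k w) z = (k + 1) * tG l w z * rho k w z := by
  have hd : DifferentiableAt ℝ (fun y => (w y).det) z := h.sm.det.differentiableAt (by simp)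
  induction k with
  | zero =>
    have : rho 0 w = fun y => (w y).det := by ext1 y; simp [rho]
    rw [this, dz_det' h]; simp
  | succ k ih =>
    have : rho (k + 1) w = fun y => rho k w y * (w y).det := by ext1 y; simp [rho, pow_succ]
    rw [this, dz_mul l ((contDiffAt_rho h).differentiableAt (by simp)) hd, ih, dz_det' h]
    push_cast; ring

theorem DM_Ld (h : KAt w z) : DM l (Ld w) z = -(Ld w z * dlam (Gam l w z)) := by
  have hi : (w z)⁻¹⁻¹ = w z := Matrix.nonsing_inv_nonsing_inv _ h.unit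
  have hiu : IsUnit ((w z)⁻¹).det := by
    rw [Matrix.det_nonsing_inv]; exact h.unit.ringInverse
  have h1 : DM l (Ld w) z =
      dlam (DM l (fun y => (w y)⁻¹) z * (w z)⁻¹⁻¹) * lam (w z)⁻¹ :=
    DM_lam (h.inv.mono (by exact_mod_cast le_top)) hiu.ne_zero l
  rw [h1, Ld, lam_dlam hiu, ← Matrix.neg_mul, ← dlam_neg, hi, DM_inv (h.MC 1) h.det0]
  congr 2
  rw [Gam]
  simp only [Matrix.neg_mul, Matrix.mul_assoc, Matrix.nonsing_inv_mul _ h.unit, Matrix.mul_one]

theorem Ld_eps (l : Fin n) : Ld w z * eps l = (∑ p, (w z)⁻¹ p l • eps p) * Ld w z := lam_eps _ _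

theorem KAt.inv_herm (h : KAt w z) : ((w z)⁻¹).IsHermitian := h.posz.inv.isHermitian

/-- the adjoint of `eps` -/
theorem adj_eps (h : KAt w z) (l : Fin n) :
    (∑ p, (w z)⁻¹ p l • eps p)ᴴ = epd l w z := by
  rw [Matrix.conjTranspose_sum, epd]
  refine Finset.sum_congr rfl fun p _ => ?_
  rw [Matrix.conjTranspose_smul, eps_conjTranspose]
  congr 1
  exact congrFun (congrFun h.inv_herm l) p

theorem pr_Ld_eps (h : KAt w z) (l : Fin n) (u v : FI n → ℂ) :
    pr (Ld w z *ᵥ (eps l *ᵥ u)) v = pr (Ld w z *ᵥ u) (epd l w z *ᵥ v) := by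
  rw [Matrix.mulVec_mulVec, Ld_eps, ← Matrix.mulVec_mulVec, pr_mulVec_left, adj_eps h]

theorem VC_constMul {ι κ : Type*} [Fintype ι] {m : WithTop ℕ∞} {a : Cm n → ι → ℂ}
    (A : Matrix κ ι ℂ) (ha : VC m a z) : VC m (fun y => A *ᵥ a y) z :=
  VC.mulVec (M := fun _ => A) (MC_const A) ha

theorem DV_constMul {ι κ : Type*} [Fintype ι] {a : Cm n → ι → ℂ} (A : Matrix κ ι ℂ)
    (ha : VC 1 a z) : DV l (fun y => A *ᵥ a y) z = A *ᵥ DV l a z := by
  rw [DV_mulVec (M := fun _ => A) (MC_const A) ha, DM_const, Matrix.zero_mulVec, zero_add]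

theorem DVb_constMul {ι κ : Type*} [Fintype ι] {a : Cm n → ι → ℂ} (A : Matrix κ ι ℂ)
    (ha : VC 1 a z) : DVb l (fun y => A *ᵥ a y) z = A *ᵥ DVb l a z := by
  rw [DVb_mulVec (M := fun _ => A) (MC_const A) ha, DMb_const, Matrix.zero_mulVec, zero_add]

/-- derivative of `hp` -/
theorem dz_hp (h : KAt w z) {a b : Cm n → FI n → ℂ} (ha : VC 1 a z) (hb : VC 1 b z) :
    dz l (fun y => hp k w y (a y) (b y)) z =
      (k + 1) * tG l w z * hp k w z (a z) (b z) - hp k w z (dlam (Gam l w z) *ᵥ a z) (b z)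
        + hp k w z (DV l a z) (b z) + hp k w z (a z) (DVb l b z) := by
  have one := one_ne_zero_inf
  have hLd : C2.MC 1 (Ld w) z := (MC_Ld h).mono (by exact_mod_cast le_top)
  have h1 : VC 1 (fun y => Ld w y *ᵥ a y) z := VC.mulVec hLd ha
  have h2 : ContDiffAt ℝ 1 (rho k w) z := (contDiffAt_rho h).of_le (by exact_mod_cast le_top)
  simp only [hp]
  rw [dz_mul l (h2.differentiableAt one) ((contDiffAt_pr h1 hb).differentiableAt one), dz_rho h,
    dz_pr h1 hb, DV_mulVec hLd ha, DM_Ld h, pr_add_left, Matrix.neg_mulVec, pr_neg_left,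
    ← Matrix.mulVec_mulVec]
  ring

theorem hp_add_left (u u' v : FI n → ℂ) : hp k w z (u + u') v = hp k w z u v + hp k w z u' v := by
  simp only [hp, Matrix.mulVec_add, pr_add_left, mul_add]

theorem hp_add_right (u v v' : FI n → ℂ) : hp k w z u (v + v') = hp k w z u v + hp k w z u v' := by
  simp only [hp, pr_add_right, mul_add]

theorem hp_smul_left (c : ℂ) (u v : FI n → ℂ) : hp k w z (c • u) v = c * hp k w z u v := by
  simp only [hp, Matrix.mulVec_smul, pr_smul_left]; ring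

theorem hp_smul_right (c : ℂ) (u v : FI n → ℂ) :
    hp k w z u (c • v) = (starRingEnd ℂ) c * hp k w z u v := by
  simp only [hp, pr_smul_right]; ring

theorem hp_neg_left (u v : FI n → ℂ) : hp k w z (-u) v = -hp k w z u v := by
  simp only [hp, Matrix.mulVec_neg, pr_neg_left]; ring

theorem hp_neg_right (u v : FI n → ℂ) : hp k w z u (-v) = -hp k w z u v := by
  simp only [hp, pr_neg_right]; ring

theorem hp_sub_left (u u' v : FI n → ℂ) : hp k w z (u - u') v = hp k w z u v - hp k w z u' v := by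
  rw [sub_eq_add_neg, hp_add_left, hp_neg_left, sub_eq_add_neg]

theorem hp_zero_left (v : FI n → ℂ) : hp k w z 0 v = 0 := by
  simp [hp, pr_zero_left]

theorem hp_sum_left {τ : Type*} (s : Finset τ) (F : τ → FI n → ℂ) (v : FI n → ℂ) :
    hp k w z (∑ i ∈ s, F i) v = ∑ i ∈ s, hp k w z (F i) v := by
  simp only [hp, Matrix.mulVec_sum, pr_sum_left, Finset.mul_sum]

theorem hp_sum_right {τ : Type*} (s : Finset τ) (F : τ → FI n → ℂ) (u : FI n → ℂ) :
    hp k w z u (∑ i ∈ s, F i) = ∑ i ∈ s, hp k w z u (F i) := by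
  simp only [hp, pr_sum_right, Finset.mul_sum]

theorem hp_eps (h : KAt w z) (l : Fin n) (u v : FI n → ℂ) :
    hp k w z (eps l *ᵥ u) v = hp k w z u (epd l w z *ᵥ v) := by
  simp only [hp, pr_Ld_eps h]

/-- `Σ tr Γ_l ε_l = Σ dlam Γ_l ε_l` on vectors -/
theorem sum_trace_eps' (h : KAt w z) (u : FI n → ℂ) :
    ∑ l, dlam (Gam l w z) *ᵥ (eps l *ᵥ u) = ∑ l, tG l w z • (eps l *ᵥ u) := by
  have h1 := sum_trace_eps (Γ := fun l => Gam l w z) fun l a m => Gam_symm h l a m
  have h2 := congrArg (· *ᵥ u) h1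
  simp only [Matrix.sum_mulVec, Matrix.smul_mulVec, ← Matrix.mulVec_mulVec] at h2
  exact h2.symm

/-- **first divergence identity** -/
theorem div_one (h : KAt w z) {a b : Cm n → FI n → ℂ} (ha : VC 1 a z) (hb : VC 1 b z) :
    ∑ l, dz l (fun y => hp k w y (eps l *ᵥ a y) (b y)) z =
      hp k w z (Dp k w a z) (b z) - hp k w z (a z) (De w b z) := by
  have e1 : ∀ l, dz l (fun y => hp k w y (eps l *ᵥ a y) (b y)) z =
      (k + 1) * tG l w z * hp k w z (eps l *ᵥ a z) (b z)
        - hp k w z (dlam (Gam l w z) *ᵥ (eps l *ᵥ a z)) (b z)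
        + hp k w z (eps l *ᵥ DV l a z) (b z) + hp k w z (a z) (epd l w z *ᵥ DVb l b z) := by
    intro l
    rw [dz_hp h (VC_constMul (eps l) ha) hb, DV_constMul (eps l) ha, hp_eps h l (a z)]
    simp only [hp_eps h]
  simp only [e1, Finset.sum_add_distrib, Finset.sum_sub_distrib]
  have e2 : ∑ l, hp k w z (dlam (Gam l w z) *ᵥ (eps l *ᵥ a z)) (b z) =
      ∑ l, tG l w z * hp k w z (eps l *ᵥ a z) (b z) := by
    rw [← hp_sum_left, sum_trace_eps' h, hp_sum_left]
    simp only [hp_smul_left]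
  have e3 : hp k w z (Dp k w a z) (b z) = ∑ l, hp k w z (eps l *ᵥ DV l a z) (b z) +
      ∑ l, k * tG l w z * hp k w z (eps l *ᵥ a z) (b z) := by
    simp only [Dp, hp_sum_left, Matrix.mulVec_add, Matrix.mulVec_smul, hp_add_left, hp_smul_left,
      Finset.sum_add_distrib]
  have e4 : hp k w z (a z) (De w b z) = -∑ l, hp k w z (a z) (epd l w z *ᵥ DVb l b z) := by
    simp only [De, hp_neg_right, hp_sum_right]
  rw [e2, e3, e4]
  have e5 : ∑ l, (k + 1) * tG l w z * hp k w z (eps l *ᵥ a z) (b z) =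
      ∑ l, k * tG l w z * hp k w z (eps l *ᵥ a z) (b z) +
        ∑ l, tG l w z * hp k w z (eps l *ᵥ a z) (b z) := by
    rw [← Finset.sum_add_distrib]
    exact Finset.sum_congr rfl fun l _ => by ring
  rw [e5]
  ring

/-- the raised `∂̄a`: `A_l = Σ_b w^{b l} ∂̄_b a` -/
def upb (l : Fin n) (w : Cm n → Matrix (Fin n) (Fin n) ℂ) (a : Cm n → FI n → ℂ) (z : Cm n) :
    FI n → ℂ := ∑ b, (w z)⁻¹ b l • DVb b a z

/-- the zeroth order term `k Σ Ric_{l b̄} ε_b^† ε_l` -/
def Qk (k : ℕ) (w : Cm n → Matrix (Fin n) (Fin n) ℂ) (z : Cm n) (u : FI n → ℂ) : FI n → ℂ :=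
  ∑ l, ∑ b, (-(k * dzb b (tG l w) z)) • (epd b w z *ᵥ (eps l *ᵥ u))

theorem DV_DVb_comm {ι : Type*} {a : Cm n → ι → ℂ} (ha : VC 2 a z) (l b : Fin n) :
    DVb b (DV l a) z = DV l (DVb b a) z := by
  ext i
  exact (dz_dzb_comm l b (ha i)).symm

theorem DM_sum {ι κ τ : Type*} (s : Finset τ) {F : τ → Cm n → Matrix ι κ ℂ}
    (h : ∀ i ∈ s, C2.MC 1 (F i) z) : DM l (fun y => ∑ i ∈ s, F i y) z = ∑ i ∈ s, DM l (F i) z := by
  ext i j
  simp only [DM_apply, Matrix.sum_apply]
  exact dz_sum l s fun t ht => (h t ht i j).differentiableAt one_ne_zero_inf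

theorem DM_smul_const {ι κ : Type*} {f : Cm n → ℂ} (hf : ContDiffAt ℝ 1 f z)
    (A : Matrix ι κ ℂ) : DM l (fun y => f y • A) z = dz l f z • A := by
  ext i j
  simp only [DM_apply, Matrix.smul_apply, smul_eq_mul]
  exact dz_mul_const l _ (hf.differentiableAt one_ne_zero_inf)

theorem dz_inv (h : KAt w z) (l b m : Fin n) :
    dz l (fun y => (w y)⁻¹ b m) z = -((w z)⁻¹ * Gam l w z) b m := by
  have := congrFun (congrFun (DM_inv (k := l) (h.MC 1) h.det0) b) m
  rw [DM_apply, Matrix.mul_assoc] at this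
  exact this

theorem DM_epd (h : KAt w z) (l b : Fin n) :
    DM l (epd b w) z = ∑ m, (-((w z)⁻¹ * Gam l w z) b m) • iot m := by
  have h1 : ∀ m, ContDiffAt ℝ 1 (fun y => (w y)⁻¹ b m) z := fun m =>
    (h.inv b m).of_le (by exact_mod_cast le_top)
  have : epd b w = fun y => ∑ m, (w y)⁻¹ b m • iot m := rfl
  rw [this, DM_sum _ fun m _ => MC_smul (h1 m) (MC_const _)]
  refine Finset.sum_congr rfl fun m _ => ?_
  rw [DM_smul_const (h1 m), dz_inv h]

/-- the Kähler identity behind BKN -/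
theorem sum_eps_DM_epd (h : KAt w z) (b : Fin n) :
    ∑ l, eps l * DM l (epd b w) z = -∑ a, (w z)⁻¹ b a • dlam (Gam a w z) := by
  have h1 : ∀ l, eps l * DM l (epd b w) z =
      -∑ a, (w z)⁻¹ b a • ∑ m, Gam a w z l m • (eps l * iot m) := by
    intro l
    rw [DM_epd h, Matrix.mul_sum]
    simp only [neg_smul, Matrix.mul_neg, Matrix.mul_smul, Finset.sum_neg_distrib]
    congr 1
    simp only [Matrix.mul_apply, Finset.sum_smul, Finset.smul_sum, smul_smul]
    rw [Finset.sum_comm]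
    refine Finset.sum_congr rfl fun a _ => Finset.sum_congr rfl fun m _ => ?_
    rw [Gam_symm h l a m]
  simp only [h1, Finset.sum_neg_distrib]
  congr 1
  rw [Finset.sum_comm]
  refine Finset.sum_congr rfl fun a _ => ?_
  rw [← Finset.smul_sum]
  rfl

theorem VC_De {a : Cm n → FI n → ℂ} (h : KAt w z) {q : ℕ} (ha : VC (q + 1) a z) :
    VC q (De w a) z :=
  (VC.sum _ fun b _ => VC.mulVec ((MC_epd h b).mono (by exact_mod_cast le_top))
    (ha.DVb le_rfl)).neg

theorem VC_Dp {a : Cm n → FI n → ℂ} (h : KAt w z) {q : ℕ} (ha : VC (q + 1) a z) :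
    VC q (Dp k w a) z := by
  refine VC.sum _ fun l _ => VC_constMul _ ((ha.DV le_rfl).add (VC.smul ?_ ?_))
  · exact (contDiffAt_const.mul (contDiffAt_tG h)).of_le (by exact_mod_cast le_top)
  · exact ha.mono (by exact_mod_cast le_self_add)

theorem VC_upb {a : Cm n → FI n → ℂ} (h : KAt w z) {q : ℕ} (ha : VC (q + 1) a z) :
    VC q (upb l w a) z :=
  VC.sum _ fun b _ => VC.smul ((h.inv b l).of_le (by exact_mod_cast le_top)) (ha.DVb le_rfl)

/-- CAR with the adjoint -/
theorem car_epd (l b : Fin n) : eps l * epd b w z + epd b w z * eps l = (w z)⁻¹ b l • 1 := by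
  rw [epd, Matrix.mul_sum, Matrix.sum_mul, ← Finset.sum_add_distrib]
  have : ∀ m, eps l * (w z)⁻¹ b m • iot m + (w z)⁻¹ b m • iot m * eps l =
      if m = l then (w z)⁻¹ b m • (1 : Matrix (FI n) (FI n) ℂ) else 0 := by
    intro m
    rw [Matrix.mul_smul, Matrix.smul_mul, ← smul_add, add_comm (eps l * iot m), car]
    split_ifs <;> simp
  simp only [this]
  simp

/-- **the Laplacian** `D'δ + δD'` -/
theorem lap_eq (h : KAt w z) {a : Cm n → FI n → ℂ} (ha : VC 2 a z) :
    Dp k w (De w a) z + De w (Dp k w a) z =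
      Qk k w z (a z) + ∑ l, dlam (Gam l w z) *ᵥ upb l w a z
        - ∑ l, ∑ b, (w z)⁻¹ b l • DV l (DVb b a) z - ∑ l, (k * tG l w z) • upb l w a z := by
  have hc : ∀ {m : WithTop ℕ∞}, (m ≤ ∞) → (m ≤ (∞ : WithTop ℕ∞)) := fun h => h
  have ha1 : VC 1 a z := ha.mono (by norm_num)
  have haev : ∀ᶠ y in 𝓝 z, VC (2 : ℕ) a y := VC.eventually (q := 2) ha
  have hDVb : ∀ b, VC 1 (DVb b a) z := fun b => ha.DVb (by norm_num)
  have hDV : ∀ b, VC 1 (DV b a) z := fun b => ha.DV (by norm_num)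
  have hepd : ∀ b, C2.MC 1 (epd b w) z := fun b => (MC_epd h b).mono (by exact_mod_cast le_top)
  have htG : ∀ l, ContDiffAt ℝ 1 (fun y => (k : ℂ) * tG l w y) z := fun l =>
    (contDiffAt_const.mul (contDiffAt_tG h)).of_le (by exact_mod_cast le_top)
  -- `∂_l δ a`
  have e1 : ∀ l, DV l (De w a) z =
      -∑ b, (DM l (epd b w) z *ᵥ DVb b a z + epd b w z *ᵥ DV l (DVb b a) z) := by
    intro l
    have : De w a = fun y => -∑ b, epd b w y *ᵥ DVb b a y := rfl
    rw [this, DV_neg (a := fun y => ∑ b, epd b w y *ᵥ DVb b a y),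
      DV_sum _ fun b _ => VC.mulVec (hepd b) (hDVb b)]
    congr 1
    exact Finset.sum_congr rfl fun b _ => DV_mulVec (hepd b) (hDVb b)
  -- `∂̄_b D' a`
  have e2 : ∀ b, DVb b (Dp k w a) z = ∑ l, eps l *ᵥ (DV l (DVb b a) z +
      ((k * dzb b (tG l w) z) • a z + (k * tG l w z) • DVb b a z)) := by
    intro b
    have : Dp k w a = fun y => ∑ l, eps l *ᵥ (DV l a y + (k * tG l w y) • a y) := rfl
    rw [this, DVb_sum _ fun l _ => VC_constMul _ ((hDV l).add (VC.smul (htG l) ha1))]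
    refine Finset.sum_congr rfl fun l _ => ?_
    rw [DVb_constMul _ ((hDV l).add (VC.smul (htG l) ha1)), DVb_add (hDV l) (VC.smul (htG l) ha1),
      DVb_smul (htG l) ha1, DV_DVb_comm ha, dzb_const_mul b _
        ((contDiffAt_tG h).differentiableAt (by simp))]
  have e3 : Dp k w (De w a) z = -∑ l, ∑ b, (eps l *ᵥ (DM l (epd b w) z *ᵥ DVb b a z) +
      (eps l *ᵥ (epd b w z *ᵥ DV l (DVb b a) z) +
        (k * tG l w z) • (eps l *ᵥ (epd b w z *ᵥ DVb b a z)))) := by
    rw [Dp, ← Finset.sum_neg_distrib]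
    refine Finset.sum_congr rfl fun l _ => ?_
    rw [e1, De, ← Finset.sum_neg_distrib, ← Finset.sum_neg_distrib, ← Finset.sum_neg_distrib,
      Finset.smul_sum, ← Finset.sum_add_distrib, Matrix.mulVec_sum]
    refine Finset.sum_congr rfl fun b _ => ?_
    simp only [smul_neg, Matrix.mulVec_add, Matrix.mulVec_neg, Matrix.mulVec_smul, neg_add]
    abel
  have e4 : De w (Dp k w a) z = -∑ l, ∑ b, (epd b w z *ᵥ (eps l *ᵥ DV l (DVb b a) z) +
      ((k * dzb b (tG l w) z) • (epd b w z *ᵥ (eps l *ᵥ a z)) +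
        (k * tG l w z) • (epd b w z *ᵥ (eps l *ᵥ DVb b a z)))) := by
    rw [De, Finset.sum_comm]
    congr 1
    refine Finset.sum_congr rfl fun b _ => ?_
    rw [e2, Matrix.mulVec_sum]
    refine Finset.sum_congr rfl fun l _ => ?_
    simp only [Matrix.mulVec_add, Matrix.mulVec_smul]
  have e5 : ∀ l b (u : FI n → ℂ), eps l *ᵥ (epd b w z *ᵥ u) + epd b w z *ᵥ (eps l *ᵥ u) =
      (w z)⁻¹ b l • u := by
    intro l b u
    rw [Matrix.mulVec_mulVec, Matrix.mulVec_mulVec, ← Matrix.add_mulVec, car_epd,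
      Matrix.smul_mulVec, Matrix.one_mulVec]
  have e6 : ∑ l, ∑ b, eps l *ᵥ (DM l (epd b w) z *ᵥ DVb b a z) =
      -∑ l, dlam (Gam l w z) *ᵥ upb l w a z := by
    rw [Finset.sum_comm]
    have : ∀ b, ∑ l, eps l *ᵥ (DM l (epd b w) z *ᵥ DVb b a z) =
        -∑ a', (w z)⁻¹ b a' • (dlam (Gam a' w z) *ᵥ DVb b a z) := by
      intro b
      have h1 := congrArg (· *ᵥ DVb b a z) (sum_eps_DM_epd h b)
      simp only [Matrix.sum_mulVec, Matrix.smul_mulVec, Matrix.neg_mulVec,
        ← Matrix.mulVec_mulVec] at h1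
      exact h1
    simp only [this, Finset.sum_neg_distrib]
    rw [Finset.sum_comm]
    congr 1
    refine Finset.sum_congr rfl fun l _ => ?_
    rw [upb, Matrix.mulVec_sum]
    exact Finset.sum_congr rfl fun b _ => by rw [Matrix.mulVec_smul]
  have e7 : ∑ l, (k * tG l w z) • upb l w a z =
      ∑ l, ∑ b, (k * tG l w z) • ((w z)⁻¹ b l • DVb b a z) := by
    refine Finset.sum_congr rfl fun l _ => ?_
    rw [upb, Finset.smul_sum]
  rw [e3, e4, e7, Qk, ← neg_eq_iff_eq_neg.2 e6]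
  simp only [← Finset.sum_neg_distrib, ← Finset.sum_add_distrib, ← Finset.sum_sub_distrib]
  refine Finset.sum_congr rfl fun l _ => Finset.sum_congr rfl fun b _ => ?_
  rw [← e5 l b (DV l (DVb b a) z), ← e5 l b (DVb b a z)]
  simp only [smul_add, neg_smul, neg_add]
  abel

/-- **second divergence identity** (BKN) -/
theorem div_two (h : KAt w z) {a c : Cm n → FI n → ℂ} (ha : VC 2 a z) (hc : VC 1 c z) :
    ∑ l, dz l (fun y => hp k w y (upb l w a y) (c y)) z =
      -hp k w z (Dp k w (De w a) z + De w (Dp k w a) z) (c z) + hp k w z (Qk k w z (a z)) (c z)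
        + ∑ l, ∑ b, (w z)⁻¹ b l * hp k w z (DVb b a z) (DVb l c z) := by
  have hDVb : ∀ b, VC 1 (DVb b a) z := fun b => ha.DVb (by norm_num)
  have hinv : ∀ b l, ContDiffAt ℝ 1 (fun y => (w y)⁻¹ b l) z := fun b l =>
    (h.inv b l).of_le (by exact_mod_cast le_top)
  have hup : ∀ l, VC 1 (upb l w a) z := fun l => by
    have := VC_upb (l := l) (q := 1) h (a := a) (by exact_mod_cast ha)
    exact_mod_cast this
  have e1 : ∀ l, DV l (upb l w a) z =
      ∑ b, ((-((w z)⁻¹ * Gam l w z) b l) • DVb b a z + (w z)⁻¹ b l • DV l (DVb b a) z) := by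
    intro l
    have : upb l w a = fun y => ∑ b, (w y)⁻¹ b l • DVb b a y := rfl
    rw [this, DV_sum _ fun b _ => VC.smul (hinv b l) (hDVb b)]
    refine Finset.sum_congr rfl fun b _ => ?_
    rw [DV_smul (hinv b l) (hDVb b), dz_inv h]
  have e2 : ∑ l, ∑ b, (((w z)⁻¹ * Gam l w z) b l) • DVb b a z = ∑ l, tG l w z • upb l w a z := by
    have h1 : ∀ b, ∑ l, ((w z)⁻¹ * Gam l w z) b l = ∑ l, (w z)⁻¹ b l * tG l w z := by
      intro b
      simp only [Matrix.mul_apply]
      rw [Finset.sum_comm]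
      refine Finset.sum_congr rfl fun c _ => ?_
      rw [← Finset.mul_sum, tG, Matrix.trace]
      congr 1
      exact Finset.sum_congr rfl fun l _ => Gam_symm h l c l
    rw [Finset.sum_comm]
    have h2 : ∀ b, ∑ l, (((w z)⁻¹ * Gam l w z) b l) • DVb b a z =
        ∑ l, tG l w z • ((w z)⁻¹ b l • DVb b a z) := by
      intro b
      rw [← Finset.sum_smul, h1, Finset.sum_smul]
      refine Finset.sum_congr rfl fun l _ => ?_
      rw [smul_smul, mul_comm]
    simp only [h2]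
    rw [Finset.sum_comm]
    refine Finset.sum_congr rfl fun l _ => ?_
    rw [upb, Finset.smul_sum]
  have e3 : ∑ l, hp k w z (upb l w a z) (DVb l c z) =
      ∑ l, ∑ b, (w z)⁻¹ b l * hp k w z (DVb b a z) (DVb l c z) := by
    refine Finset.sum_congr rfl fun l _ => ?_
    rw [upb, hp_sum_left]
    exact Finset.sum_congr rfl fun b _ => hp_smul_left _ _ _
  have e4 : ∑ l, dz l (fun y => hp k w y (upb l w a y) (c y)) z =
      ∑ l, ((k + 1) * tG l w z * hp k w z (upb l w a z) (c z)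
        - hp k w z (dlam (Gam l w z) *ᵥ upb l w a z) (c z)
        + hp k w z (DV l (upb l w a) z) (c z)) +
      ∑ l, ∑ b, (w z)⁻¹ b l * hp k w z (DVb b a z) (DVb l c z) := by
    rw [← e3, ← Finset.sum_add_distrib]
    exact Finset.sum_congr rfl fun l _ => dz_hp h (hup l) hc
  rw [e4]
  congr 1
  have e5 : ∑ l, ((k + 1) * tG l w z * hp k w z (upb l w a z) (c z)
        - hp k w z (dlam (Gam l w z) *ᵥ upb l w a z) (c z)
        + hp k w z (DV l (upb l w a) z) (c z)) =
      hp k w z (∑ l, ((k + 1) * tG l w z) • upb l w a z -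
        ∑ l, dlam (Gam l w z) *ᵥ upb l w a z + ∑ l, DV l (upb l w a) z) (c z) := by
    rw [hp_add_left, hp_sub_left, hp_sum_left, hp_sum_left, hp_sum_left]
    simp only [hp_smul_left, Finset.sum_add_distrib, Finset.sum_sub_distrib]
  rw [e5, ← hp_neg_left, ← hp_add_left, lap_eq h ha]
  congr 1
  simp only [e1, Finset.sum_add_distrib, neg_smul, Finset.sum_neg_distrib, e2, add_mul, add_smul,
    one_mul]
  abel

theorem tG_eq (h : KAt w z) (l : Fin n) :
    tG l w z = dz l (fun y => ((Real.log (w y).det.re : ℝ) : ℂ)) z := by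
  have hd : DifferentiableAt ℝ (fun y => (w y).det.re) z :=
    Complex.reCLM.differentiableAt.comp z (h.sm.det.differentiableAt (by simp))
  rw [dz_comp_real l (Real.hasDerivAt_log (C2.det_re_pos h.posz).ne') hd]
  have e2 : (fun y => (((w y).det.re : ℝ) : ℂ)) =ᶠ[𝓝 z] fun y => (w y).det := by
    filter_upwards [h.pos] with y hy using C2.det_re_eq hy
  rw [C2.dz_congr l e2, dz_det' h]
  have : (((w z).det.re)⁻¹ : ℝ) * (w z).det = 1 := by
    rw [← C2.det_re_eq h.posz, ← Complex.ofReal_mul, Complex.ofReal_re,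
      inv_mul_cancel₀ (C2.det_re_pos h.posz).ne', Complex.ofReal_one]
  rw [mul_comm (tG l w z), ← mul_assoc, this, one_mul]

theorem smooth_logdet (h : KAt w z) :
    ContDiffAt ℝ ∞ (fun y => ((Real.log (w y).det.re : ℝ) : ℂ)) z := by
  have h1 : ContDiffAt ℝ ∞ (fun y => (w y).det.re) z :=
    Complex.reCLM.contDiff.contDiffAt.comp z h.sm.det
  exact contDiffAt_ofReal (h1.log (C2.det_re_pos h.posz).ne')

theorem tG_eventually (h : KAt w z) (l : Fin n) :
    tG l w =ᶠ[𝓝 z] dz l (fun y => ((Real.log (w y).det.re : ℝ) : ℂ)) := by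
  filter_upwards [h.eventually] with y hy using tG_eq hy l

theorem dz_tG_symm (h : KAt w z) (l m : Fin n) : dz l (tG m w) z = dz m (tG l w) z := by
  rw [C2.dz_congr l (tG_eventually h m), C2.dz_congr m (tG_eventually h l)]
  exact dz_dz_comm l m ((smooth_logdet h).of_le (by norm_cast))

/-- `-∂̄_b ∂_l log det w` is the Ricci form -/
theorem dzb_tG (h : KAt w z) (l b : Fin n) :
    dzb b (tG l w) z = cHess (fun y => Real.log (w y).det.re) z l b := by
  rw [C2.dzb_congr b (tG_eventually h l), C2.cHess_apply]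
  exact (dz_dzb_comm l b ((smooth_logdet h).of_le (by norm_cast))).symm

theorem sum_eps_symm' {S : Fin n → Fin n → FI n → ℂ} (hS : ∀ k l, S k l = S l k) :
    ∑ k, ∑ l, eps k *ᵥ (eps l *ᵥ S k l) = 0 := by
  have h : ∑ k, ∑ l, eps k *ᵥ (eps l *ᵥ S k l) = -∑ k, ∑ l, eps k *ᵥ (eps l *ᵥ S k l) := by
    conv_lhs => rw [Finset.sum_comm]
    rw [← Finset.sum_neg_distrib]
    refine Finset.sum_congr rfl fun l _ => ?_
    rw [← Finset.sum_neg_distrib]
    refine Finset.sum_congr rfl fun k _ => ?_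
    rw [Matrix.mulVec_mulVec, eps_eps k l, hS k l, Matrix.neg_mulVec, ← Matrix.mulVec_mulVec]
  have h3 : ∀ X : FI n → ℂ, X = -X → X = 0 := by
    intro X hX
    ext i
    have h4 := congrFun hX i
    rw [Pi.neg_apply] at h4
    exact self_eq_neg.1 h4
  exact h3 _ h

/-- `D'² = 0` -/
theorem Dp_Dp (h : KAt w z) {a : Cm n → FI n → ℂ} (ha : VC 2 a z) :
    Dp k w (Dp k w a) z = 0 := by
  have ha1 : VC 1 a z := ha.mono (by norm_num)
  have hDV : ∀ b, VC 1 (DV b a) z := fun b => ha.DV (by norm_num)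
  have htG : ∀ l, ContDiffAt ℝ 1 (fun y => (k : ℂ) * tG l w y) z := fun l =>
    (contDiffAt_const.mul (contDiffAt_tG h)).of_le (by exact_mod_cast le_top)
  have e2 : ∀ b, DV b (Dp k w a) z = ∑ l, eps l *ᵥ (DV b (DV l a) z +
      ((k * dz b (tG l w) z) • a z + (k * tG l w z) • DV b a z)) := by
    intro b
    have : Dp k w a = fun y => ∑ l, eps l *ᵥ (DV l a y + (k * tG l w y) • a y) := rfl
    rw [this, DV_sum _ fun l _ => VC_constMul _ ((hDV l).add (VC.smul (htG l) ha1))]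
    refine Finset.sum_congr rfl fun l _ => ?_
    rw [DV_constMul _ ((hDV l).add (VC.smul (htG l) ha1)), DV_add (hDV l) (VC.smul (htG l) ha1),
      DV_smul (htG l) ha1, dz_const_mul b _ ((contDiffAt_tG h).differentiableAt (by simp))]
  have e3 : Dp k w (Dp k w a) z = ∑ b, ∑ l, eps b *ᵥ (eps l *ᵥ (DV b (DV l a) z +
      ((k * dz b (tG l w) z) • a z + (k * tG l w z) • DV b a z) +
      (k * tG b w z) • (DV l a z + (k * tG l w z) • a z))) := by
    have : Dp k w (Dp k w a) z = ∑ b, eps b *ᵥ (DV b (Dp k w a) z +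
      (k * tG b w z) • Dp k w a z) := rfl
    rw [this]
    refine Finset.sum_congr rfl fun b _ => ?_
    rw [e2, Dp, Finset.smul_sum, ← Finset.sum_add_distrib, Matrix.mulVec_sum]
    refine Finset.sum_congr rfl fun l _ => ?_
    rw [← Matrix.mulVec_smul, ← Matrix.mulVec_add]
  rw [e3]
  refine sum_eps_symm' fun b l => ?_
  have h1 : DV b (DV l a) z = DV l (DV b a) z := by
    ext i; exact dz_dz_comm b l (ha i)
  rw [h1, dz_tG_symm h b l]
  simp only [smul_add, smul_smul]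
  rw [show (k : ℂ) * tG b w z * (k * tG l w z) = k * tG l w z * (k * tG b w z) by ring]
  abel

end ops

end Vale.Agent.P299.IX
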