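import Vale.Agent.P299.H723.D.Stmt
import Vale.Agent.P299.H954.IX.Loc
import Vale.Agent.P272.K.INT.Global

/-!
# Smooth `(*,0)`-forms with values in `-kK` on a Kähler manifold: definitions

The metric of `-K` is the one induced by the Kähler metric `w` (`|∂_1 ∧ … ∧ ∂_n|² = det w`).
-/

open scoped Manifold ContDiff ComplexOrder Topology Matrix
open Vale.Agent.P272.K Vale.Agent.P272.K.C2

noncomputable section

namespace Vale.Agent.P299.IX

/-- components of forms of type `(*,0)` in the charts of `Z` -/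
abbrev Frm (n : ℕ) (Z : Type*) [TopologicalSpace Z] := Chart n Z → Cm n → FI n → ℂ

variable {n : ℕ} {Z : Type*} [TopologicalSpace Z]

/-- `D'` -/
def DpX (k : ℕ) (w : D.FormM n Z) (g : Frm n Z) : Frm n Z := fun e => Dp k (w e) (g e)

/-- `δ` -/
def DeX (w : D.FormM n Z) (g : Frm n Z) : Frm n Z := fun e => De (w e) (g e)

/-- `D' + δ` -/
def DDX (k : ℕ) (w : D.FormM n Z) (g : Frm n Z) : Frm n Z := fun e z =>
  Dp k (w e) (g e) z + De (w e) (g e) z

/-- the zeroth order term of BKN -/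
def QX (k : ℕ) (w : D.FormM n Z) (g : Frm n Z) : Frm n Z := fun e z => Qk k (w e) z (g e z)

variable [ChartedSpace (Cm n) Z]

/-- `g` is a smooth section of `Λ^{*,0} ⊗ (-kK)` -/
structure IsSec (k : ℕ) (g : Frm n Z) : Prop where
  smooth : ∀ e x, At e x → VC ∞ (g e) (e x)
  change : ∀ e e' x, At e x → At e' x →
    (jacM e e' x).det ^ k • g e (e x) = lam (jacM e e' x)ᵀ *ᵥ g e' (e' x)

/-- the Hermitian product of two sections times the volume density, in the charts -/
def hpX (k : ℕ) (w : D.FormM n Z) (g h : Frm n Z) (e : Chart n Z) (z : Cm n) : ℂ :=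
  hp k (w e) z (g e z) (h e z)

/-- the `L²` Hermitian product (linear in the first variable) -/
def ipX [T2Space Z] [CompactSpace Z] [IsManifold 𝓘(ℂ, Cm n) ω Z] (k : ℕ) (w : D.FormM n Z)
    (g h : Frm n Z) : ℂ :=
  (INT.intX (fun e z => (hpX k w g h e z).re) : ℂ) +
    Complex.I * (INT.intX (fun e z => (hpX k w g h e z).im) : ℂ)

/-- the gradient term `Σ w^{b l} ⟨∂̄_b g, ∂̄_l h⟩` times the volume density -/
def gradbX (k : ℕ) (w : D.FormM n Z) (g h : Frm n Z) (e : Chart n Z) (z : Cm n) : ℂ :=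
  ∑ l, ∑ b, (w e z)⁻¹ b l * hp k (w e) z (DVb b (g e) z) (DVb l (h e) z)

end Vale.Agent.P299.IX
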