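import Vale.Agent.P299.H954.IX.G.Glob

/-!
# Bochner-Kodaira-Nakano for `(*,0)`-forms with values in `-kK` on a compact Kähler manifold
-/

open scoped Manifold ContDiff ComplexOrder Topology Matrix
open Vale.Agent.P272.K Vale.Agent.P272.K.C2 Vale.Agent.P299.H954

set_option linter.unusedSectionVars false

noncomputable section

namespace Vale.Agent.P299.IX

variable {n : ℕ} {Z : Type*} [TopologicalSpace Z]

/-- the Hermitian line bundle `-kK`, with the metric induced by `w` -/
def hlbK (k : ℕ) (w : D.FormM n Z) [ChartedSpace (Cm n) Z] : G.HLB n Z where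
  c e e' x := (jacM e e' x).det ^ k
  H e z := (w e z).det ^ k
  θ e l z := k * tG l (w e) z

theorem lat_K (k : ℕ) {w : Cm n → Matrix (Fin n) (Fin n) ℂ} {z : Cm n} (h : KAt w z) :
    G.LAt (fun y => (w y).det ^ k) (fun l y => k * tG l w y) z where
  smooth := by
    filter_upwards [h.eventually] with y hy using hy.sm.det.pow k
  pos := by
    filter_upwards [h.pos] with y hy
    exact pow_pos hy.det_pos k
  conn := by
    filter_upwards [h.eventually] with y hy
    intro l
    have hd : DifferentiableAt ℝ (fun y => (w y).det) y := hy.sm.det.differentiableAt (by simp)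
    induction k with
    | zero =>
      simp [dz]
    | succ k ih =>
      have h1 : (fun y => (w y).det ^ (k + 1)) = fun y => (w y).det ^ k * (w y).det := by
        ext1 y; rw [pow_succ]
      have h2 : DifferentiableAt ℝ (fun y => (w y).det ^ k) y :=
        (hy.sm.det.pow k).differentiableAt (by simp)
      rw [h1, dz_mul l h2 hd, ih, dz_det' hy]
      push_cast
      ring

theorem hp_eq_G (k : ℕ) (w : Cm n → Matrix (Fin n) (Fin n) ℂ) (z : Cm n) (u v : FI n → ℂ) :
    hp k w z u v = G.hp (fun y => (w y).det ^ k) w z u v := by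
  simp only [hp, G.hp, rho, G.rho, pow_succ]

theorem Qk_eq_G (k : ℕ) {w : Cm n → Matrix (Fin n) (Fin n) ℂ} {z : Cm n} (h : KAt w z)
    (u : FI n → ℂ) : Qk k w z u = G.Qk (fun l y => k * tG l w y) w z u := by
  unfold Qk G.Qk
  refine Finset.sum_congr rfl fun l _ => Finset.sum_congr rfl fun b _ => ?_
  rw [dzb_const_mul b _ ((contDiffAt_tG h).differentiableAt (by simp))]

variable [ChartedSpace (Cm n) Z]

theorem DpX_eq (k : ℕ) (w : D.FormM n Z) (g : Frm n Z) : DpX k w g = G.DpL (hlbK k w) g := rfl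

theorem DDX_eq (k : ℕ) (w : D.FormM n Z) (g : Frm n Z) : DDX k w g = G.DDL (hlbK k w) w g := rfl

theorem hpX_eq (k : ℕ) (w : D.FormM n Z) (g h : Frm n Z) :
    hpX k w g h = G.hpL (hlbK k w) w g h := by
  funext e z
  exact hp_eq_G k (w e) z _ _

theorem gradbX_eq (k : ℕ) (w : D.FormM n Z) (g h : Frm n Z) :
    gradbX k w g h = G.gradbL (hlbK k w) w g h := by
  funext e z
  simp only [gradbX, G.gradbL, G.gradb, hp_eq_G]
  rfl

theorem isSec_iff {k : ℕ} {w : D.FormM n Z} {g : Frm n Z} :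
    IsSec k g ↔ G.IsSecL (hlbK k w) g :=
  ⟨fun h => ⟨h.smooth, h.change⟩, fun h => ⟨h.smooth, h.change⟩⟩

variable [IsManifold 𝓘(ℂ, Cm n) ω Z]

theorem isHLB_K (k : ℕ) {w : D.FormM n Z} (hw : IsKahler w) : G.IsHLB (hlbK k w) where
  lat e x hx := lat_K k (G.kat w hw hx)
  an e e' x hx hx' := (jacM_det_holo hx hx').pow k
  ne e e' x hx hx' := pow_ne_zero _ (jacM_det_ne_zero hx hx')
  norm e e' x hx hx' := by
    show (w e (e x)).det ^ k = ((‖(jacM e e' x).det ^ k‖ ^ 2 : ℝ) : ℂ) * (w e' (e' x)).det ^ k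
    rw [G.det_change (hw.change e e' x hx hx'), mul_pow, norm_pow, ← Complex.ofReal_pow, ← pow_mul,
      ← pow_mul, mul_comm 2 k]

variable {k : ℕ} {w : D.FormM n Z} {g g' h h' : Frm n Z}

theorem IsSec.dp (hw : IsKahler w) (hg : IsSec k g) : IsSec k (DpX k w g) :=
  isSec_iff.2 ((isSec_iff.1 hg).dp hw (isHLB_K k hw))

theorem IsSec.de (hw : IsKahler w) (hg : IsSec k g) : IsSec k (DeX w g) :=
  isSec_iff.2 ((isSec_iff.1 hg).de hw (isHLB_K k hw))

theorem IsSec.dd (hw : IsKahler w) (hg : IsSec k g) : IsSec k (DDX k w g) :=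
  isSec_iff.2 ((isSec_iff.1 hg).dd hw (isHLB_K k hw))

theorem QX_at (hw : IsKahler w) (g : Frm n Z) {e : Chart n Z} {x : Z} (hx : At e x) :
    QX k w g e (e x) = G.QL (hlbK k w) w g e (e x) := Qk_eq_G k (G.kat w hw hx) _

theorem QX_eventually (hw : IsKahler w) (g : Frm n Z) {e : Chart n Z} {x : Z} (hx : At e x) :
    QX k w g e =ᶠ[𝓝 (e x)] G.QL (hlbK k w) w g e := by
  filter_upwards [(G.kat w hw hx).eventually] with y hy using Qk_eq_G k hy _

theorem IsSec.q (hw : IsKahler w) (hg : IsSec k g) : IsSec k (QX k w g) where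
  smooth e x hx := by
    have h1 := ((isSec_iff (w := w).1 hg).q hw (isHLB_K k hw)).smooth e x hx
    intro i
    refine (h1 i).congr_of_eventuallyEq ?_
    filter_upwards [QX_eventually hw g hx] with y hy
    rw [hy]
  change e e' x hx hx' := by
    rw [QX_at hw g hx, QX_at hw g hx']
    exact ((isSec_iff (w := w).1 hg).q hw (isHLB_K k hw)).change e e' x hx hx'

theorem IsSec.add (hg : IsSec k g) (hh : IsSec k h) : IsSec k (fun e z => g e z + h e z) where
  smooth e x hx := (hg.smooth e x hx).add (hh.smooth e x hx)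
  change e e' x hx hx' := by
    rw [smul_add, hg.change e e' x hx hx', hh.change e e' x hx hx', Matrix.mulVec_add]

theorem IsSec.const_smul (a : ℂ) (hg : IsSec k g) : IsSec k (fun e z => a • g e z) where
  smooth e x hx := VC.smul contDiffAt_const (hg.smooth e x hx)
  change e e' x hx hx' := by
    rw [smul_comm, hg.change e e' x hx hx', Matrix.mulVec_smul]

/-- multiplication by a smooth function -/
theorem IsSec.smul {χ : Z → ℂ} (hχ : G.SmC (n := n) χ) (hg : IsSec k g) :
    IsSec k (fun e z => χ (e.symm z) • g e z) where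
  smooth e x hx := VC.smul (hχ e x hx) (hg.smooth e x hx)
  change e e' x hx hx' := by
    rw [hx.left_inv, hx'.left_inv, smul_comm, hg.change e e' x hx hx', Matrix.mulVec_smul]

/-- the curvature of `-kK` is semipositive -/
theorem semiPos_K (hw : IsKahler w) (hric : D.RicNonneg w) : G.SemiPos (hlbK k w) := by
  intro e x hx
  have h1 : (Matrix.of fun l b => -(dzb b ((hlbK k w).θ e l) (e x))) =
      (k : ℂ) • D.ric w e (e x) := by
    ext l b
    have h2 : dzb b ((hlbK k w).θ e l) (e x) = k * dzb b (tG l (w e)) (e x) :=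
      dzb_const_mul b _ ((contDiffAt_tG (G.kat w hw hx)).differentiableAt (by simp))
    rw [Matrix.of_apply, h2, dzb_tG (G.kat w hw hx)]
    simp only [Matrix.smul_apply, D.ric, Matrix.neg_apply, smul_eq_mul]
    ring
  rw [h1]
  exact (hric e x hx).smul (by positivity)

section compact

variable [T2Space Z] [CompactSpace Z]

theorem ipX_eq (k : ℕ) (w : D.FormM n Z) (g h : Frm n Z) :
    ipX k w g h = G.ipL (hlbK k w) w g h := by
  unfold ipX G.ipL G.intC
  rw [hpX_eq]

theorem ipX_add_left (hw : IsKahler w) (hg : IsSec k g) (hg' : IsSec k g') (hh : IsSec k h) :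
    ipX k w (fun e z => g e z + g' e z) h = ipX k w g h + ipX k w g' h := by
  simp only [ipX_eq]
  exact G.ipL_add_left hw (isHLB_K k hw) (isSec_iff.1 hg) (isSec_iff.1 hg') (isSec_iff.1 hh)

theorem ipX_smul_left (hw : IsKahler w) (hg : IsSec k g) (hh : IsSec k h) (c : ℂ) :
    ipX k w (fun e z => c • g e z) h = c * ipX k w g h := by
  simp only [ipX_eq]
  exact G.ipL_smul_left hw (isHLB_K k hw) (isSec_iff.1 hg) (isSec_iff.1 hh) c

theorem ipX_conj (hw : IsKahler w) (g h : Frm n Z) :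
    (starRingEnd ℂ) (ipX k w g h) = ipX k w h g := by
  simp only [ipX_eq]
  exact G.ipL_conj hw (isHLB_K k hw) g h

theorem ipX_self_nonneg (hw : IsKahler w) (g : Frm n Z) : 0 ≤ ipX k w g g := by
  rw [ipX_eq]
  exact G.ipL_self_nonneg hw (isHLB_K k hw) g

/-- **`δ` is the formal adjoint of `D'`** -/
theorem ipX_dp (hw : IsKahler w) (hg : IsSec k g) (hh : IsSec k h) :
    ipX k w (DpX k w g) h = ipX k w g (DeX w h) := by
  simp only [ipX_eq]
  exact G.ip_dp hw (isHLB_K k hw) (isSec_iff.1 hg) (isSec_iff.1 hh)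

/-- `D' + δ` is symmetric -/
theorem ipX_dd (hw : IsKahler w) (hg : IsSec k g) (hh : IsSec k h) :
    ipX k w (DDX k w g) h = ipX k w g (DDX k w h) := by
  simp only [ipX_eq]
  exact G.ip_dd hw (isHLB_K k hw) (isSec_iff.1 hg) (isSec_iff.1 hh)

/-- **Bochner-Kodaira-Nakano** -/
theorem bknX (hw : IsKahler w) (hg : IsSec k g) :
    ipX k w (DDX k w g) (DDX k w g) = ipX k w (QX k w g) g + G.intC (gradbX k w g g) := by
  have h1 : ipX k w (QX k w g) g = G.ipL (hlbK k w) w (G.QL (hlbK k w) w g) g := by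
    rw [ipX_eq]
    exact G.ipL_congr (fun e x hx => QX_at hw g hx) fun _ _ _ => rfl
  rw [h1, ipX_eq, gradbX_eq]
  exact G.bkn hw (isHLB_K k hw) (isSec_iff.1 hg)

theorem re_ipX_q_nonneg (hw : IsKahler w) (hric : D.RicNonneg w) (g : Frm n Z) :
    0 ≤ (ipX k w (QX k w g) g).re := by
  have h1 : ipX k w (QX k w g) g = G.ipL (hlbK k w) w (G.QL (hlbK k w) w g) g := by
    rw [ipX_eq]
    exact G.ipL_congr (fun e x hx => QX_at hw g hx) fun _ _ _ => rfl
  rw [h1]
  exact G.re_ip_q_nonneg hw (isHLB_K k hw) (semiPos_K hw hric) g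

/-- **BKN inequality** for `Ric ≥ 0` -/
theorem bknX_le (hw : IsKahler w) (hric : D.RicNonneg w) (hg : IsSec k g) :
    (G.intC (gradbX k w g g)).re ≤ (ipX k w (DDX k w g) (DDX k w g)).re := by
  rw [bknX hw hg, Complex.add_re]
  linarith [re_ipX_q_nonneg (k := k) hw hric g]

theorem re_gradbX_nonneg (hw : IsKahler w) (g : Frm n Z) :
    0 ≤ (G.intC (gradbX k w g g)).re := by
  rw [gradbX_eq]
  exact G.re_gradb_nonneg hw (isHLB_K k hw) g

/-- Leibniz rule for `D' + δ` -/
theorem DDX_smul {χ : Z → ℂ} (hχ : G.SmC (n := n) χ) (hg : IsSec k g) {e : Chart n Z} {x : Z}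
    (hx : At e x) : DDX k w (fun e z => χ (e.symm z) • g e z) e (e x) =
      χ x • DDX k w g e (e x) +
        (∑ l, dz l (fun y => χ (e.symm y)) (e x) • (eps l *ᵥ g e (e x)) -
        ∑ b, dzb b (fun y => χ (e.symm y)) (e x) • (epd b (w e) (e x) *ᵥ g e (e x))) :=
  G.DDL_smul hχ (isSec_iff (w := w).1 hg) hx

/-- if `(D'+δ) g = 0` and `Ric ≥ 0` then `∂̄ g = 0` -/
theorem dbar_eq_zero (hw : IsKahler w) (hric : D.RicNonneg w) (hg : IsSec k g)
    (h0 : ∀ e x, At e x → DDX k w g e (e x) = 0) {e : Chart n Z} {x : Z} (hx : At e x)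
    (b : Fin n) : DVb b (g e) (e x) = 0 :=
  G.dbar_zero hw (isHLB_K k hw) (semiPos_K hw hric) (isSec_iff.1 hg) h0 hx b

end compact

end Vale.Agent.P299.IX
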