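import Vale.Agent.P299.H954.IX.Glob
import Vale.Agent.P299.H956.D1.Pull

/-!
# `D'`, `δ` and the Hermitian product under holomorphic isometries
-/

open scoped Manifold ContDiff ComplexOrder Topology Matrix
open Vale.Agent.P272.K Vale.Agent.P272.K.C2 Vale.Agent.P299.H954

set_option linter.unusedSectionVars false

noncomputable section

namespace Vale.Agent.P299.IX

theorem jmat_det_holo {n : ℕ} {τ : Cm n → Cm n} {z : Cm n} (h : ContDiffAt ℂ ω τ z) :
    ContDiffAt ℂ ω (fun y => (jmat τ y).det) z := by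
  have : (fun y => (jmat τ y).det) = fun y => ∑ σ : Equiv.Perm (Fin n),
      (Equiv.Perm.sign σ : ℂ) * ∏ i, jmat τ y (σ i) i := by
    funext y; rw [Matrix.det_apply']
  rw [this]
  exact ContDiffAt.sum fun σ _ => contDiffAt_const.mul
    (contDiffAt_prod fun i _ => jmat_holo h _ _)

variable {n : ℕ} {X Y : Type*} [TopologicalSpace X] [TopologicalSpace Y] [ChartedSpace (Cm n) X]
  [ChartedSpace (Cm n) Y]

/-- `g` is the pull back of `g'` under `φ` (forms of type `(*,0)` with values in `-kK`) -/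
def IsPull (k : ℕ) (φ : X → Y) (g : Frm n X) (g' : Frm n Y) : Prop :=
  ∀ (e : Chart n X) (e' : Chart n Y) (x : X), At e x → At e' (φ x) →
    (D.jacF φ e e' x).det ^ k • g e (e x) = lam (D.jacF φ e e' x)ᵀ *ᵥ g' e' (e' (φ x))

variable [IsManifold 𝓘(ℂ, Cm n) ω X] [IsManifold 𝓘(ℂ, Cm n) ω Y] {φ : X → Y} {w : D.FormM n X}
  {w' : D.FormM n Y} {g h : Frm n X} {g' h' : Frm n Y} {e : Chart n X} {e' : Chart n Y} {x : X}
  {k : ℕ}

theorem form_map (hw' : IsKahler w') (hφ : ContMDiff 𝓘(ℂ, Cm n) 𝓘(ℂ, Cm n) ω φ)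
    (hiso : ∀ e x, At e x → D.pullM φ w' e (e x) = w e (e x)) (hx : At e x)
    (hx' : At e' (φ x)) : w e (e x) =
      (D.jacF φ e e' x)ᵀ * w' e' (e' (φ x)) * (D.jacF φ e e' x).map (starRingEnd ℂ) := by
  rw [← hiso e x hx, H956.pullM_eq hw'.toIsHermitian.isForm (hφ x) hx hx']

theorem unit_map (hw : IsKahler w) (hw' : IsKahler w')
    (hφ : ContMDiff 𝓘(ℂ, Cm n) 𝓘(ℂ, Cm n) ω φ)
    (hiso : ∀ e x, At e x → D.pullM φ w' e (e x) = w e (e x)) (hx : At e x)
    (hx' : At e' (φ x)) : IsUnit (D.jacF φ e e' x).det := by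
  have h1 := form_map hw' hφ hiso hx hx'
  rw [isUnit_iff_ne_zero]
  intro h0
  have h2 := congrArg Matrix.det h1
  rw [Matrix.det_mul, Matrix.det_mul, Matrix.det_transpose, h0, zero_mul, zero_mul] at h2
  exact (hw.posDef e x hx).det_pos.ne' h2

theorem chg_map (hw : IsKahler w) (hw' : IsKahler w')
    (hφ : ContMDiff 𝓘(ℂ, Cm n) 𝓘(ℂ, Cm n) ω φ)
    (hiso : ∀ e x, At e x → D.pullM φ w' e (e x) = w e (e x)) (hx : At e x)
    (hx' : At e' (φ x)) :
    ∀ᶠ y in 𝓝 (e x), G.Chg (fun z => e' (φ (e.symm z))) (w e) (w' e') y := by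
  filter_upwards [H956.nhds_at_map (hφ x).continuousAt hx hx'] with y hy
  obtain ⟨hyt, h1, h2⟩ := hy
  have hey : e (e.symm y) = y := e.right_inv hyt
  have hj : D.jacF φ e e' (e.symm y) = jmat (fun z => e' (φ (e.symm z))) y := by
    show jmat (fun z => e' (φ (e.symm z))) (e (e.symm y)) = _
    rw [hey]
  refine ⟨?_, ?_, ?_, ?_, ?_⟩
  · have := H956.rep_hol (hφ _) h1 h2
    rwa [hey] at this
  · have := G.kat w hw h1
    rwa [hey] at this
  · exact G.kat w' hw' h2
  · have := unit_map hw hw' hφ hiso h1 h2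
    rwa [hj] at this
  · have := form_map hw' hφ hiso h1 h2
    rwa [hj, hey] at this

theorem chgL_map (k : ℕ) (hw : IsKahler w) (hw' : IsKahler w')
    (hφ : ContMDiff 𝓘(ℂ, Cm n) 𝓘(ℂ, Cm n) ω φ)
    (hiso : ∀ e x, At e x → D.pullM φ w' e (e x) = w e (e x)) (hx : At e x)
    (hx' : At e' (φ x)) :
    ∀ᶠ y in 𝓝 (e x), G.ChgL (fun z => e' (φ (e.symm z)))
      (fun y => (jmat (fun z => e' (φ (e.symm z))) y).det ^ k)
      (fun y => (w e y).det ^ k) (fun y => (w' e' y).det ^ k)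
      (fun l y => k * tG l (w e) y) (fun l y => k * tG l (w' e') y) y := by
  filter_upwards [(chg_map hw hw' hφ hiso hx hx').eventually_nhds] with y hy
  have hz := hy.self_of_nhds
  refine ⟨lat_K k hz.kat, lat_K k hz.kat', (jmat_det_holo hz.an).pow k,
    pow_ne_zero _ hz.unit.ne_zero, ?_⟩
  filter_upwards [hy] with y' hy'
  rw [G.det_change hy'.form, mul_pow, norm_pow, ← Complex.ofReal_pow, ← pow_mul, ← pow_mul,
    mul_comm 2 k]

theorem chgV_map (hφ : ContMDiff 𝓘(ℂ, Cm n) 𝓘(ℂ, Cm n) ω φ)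
    (hg : ∀ e x, At e x → VC 1 (g e) (e x)) (hg' : ∀ e x, At e x → VC 1 (g' e) (e x))
    (hp : IsPull k φ g g') (hx : At e x) (hx' : At e' (φ x)) :
    ∀ᶠ y in 𝓝 (e x), G.ChgV (fun z => e' (φ (e.symm z)))
      (fun y => (jmat (fun z => e' (φ (e.symm z))) y).det ^ k) (g e) (g' e') y := by
  filter_upwards [(H956.nhds_at_map (hφ x).continuousAt hx hx').eventually_nhds] with y hy
  obtain ⟨hyt, h1, h2⟩ := hy.self_of_nhds
  have hey : e (e.symm y) = y := e.right_inv hyt
  refine ⟨?_, hg' e' _ h2, ?_⟩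
  · have := hg e _ h1
    rwa [hey] at this
  · filter_upwards [hy] with y' hy'
    have := hp e e' _ hy'.2.1 hy'.2.2
    have hj : D.jacF φ e e' (e.symm y') = jmat (fun z => e' (φ (e.symm z))) y' := by
      show jmat (fun z => e' (φ (e.symm z))) (e (e.symm y')) = _
      rw [e.right_inv hy'.1]
    rwa [hj, e.right_inv hy'.1] at this

/-- **`D'` commutes with the pull back under a holomorphic isometry** -/
theorem IsPull.dp (hw : IsKahler w) (hw' : IsKahler w')
    (hφ : ContMDiff 𝓘(ℂ, Cm n) 𝓘(ℂ, Cm n) ω φ)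
    (hiso : ∀ e x, At e x → D.pullM φ w' e (e x) = w e (e x))
    (hg : ∀ e x, At e x → VC 1 (g e) (e x)) (hg' : ∀ e x, At e x → VC 1 (g' e) (e x))
    (hp : IsPull k φ g g') : IsPull k φ (DpX k w g) (DpX k w' g') := by
  intro e e' x hx hx'
  have := G.Dp_change (chg_map hw hw' hφ hiso hx hx').self_of_nhds
    (chgL_map k hw hw' hφ hiso hx hx').self_of_nhds
    (chgV_map hφ hg hg' hp hx hx').self_of_nhds
  simp only [hx.left_inv] at this
  exact this

/-- **`δ` commutes with the pull back under a holomorphic isometry** -/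
theorem IsPull.de (hw : IsKahler w) (hw' : IsKahler w')
    (hφ : ContMDiff 𝓘(ℂ, Cm n) 𝓘(ℂ, Cm n) ω φ)
    (hiso : ∀ e x, At e x → D.pullM φ w' e (e x) = w e (e x))
    (hg : ∀ e x, At e x → VC 1 (g e) (e x)) (hg' : ∀ e x, At e x → VC 1 (g' e) (e x))
    (hp : IsPull k φ g g') : IsPull k φ (DeX w g) (DeX w' g') := by
  intro e e' x hx hx'
  have := G.De_change (chg_map hw hw' hφ hiso hx hx').self_of_nhds
    (chgL_map k hw hw' hφ hiso hx hx').self_of_nhds.an
    (chgV_map hφ hg hg' hp hx hx').self_of_nhds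
  simp only [hx.left_inv] at this
  exact this

theorem IsPull.add {h : Frm n X} {h' : Frm n Y} (hp : IsPull k φ g g') (hq : IsPull k φ h h') :
    IsPull k φ (fun e z => g e z + h e z) (fun e z => g' e z + h' e z) := by
  intro e e' x hx hx'
  rw [smul_add, Matrix.mulVec_add, hp e e' x hx hx', hq e e' x hx hx']

/-- **`D' + δ` commutes with the pull back under a holomorphic isometry** -/
theorem IsPull.dd (hw : IsKahler w) (hw' : IsKahler w')
    (hφ : ContMDiff 𝓘(ℂ, Cm n) 𝓘(ℂ, Cm n) ω φ)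
    (hiso : ∀ e x, At e x → D.pullM φ w' e (e x) = w e (e x))
    (hg : ∀ e x, At e x → VC 1 (g e) (e x)) (hg' : ∀ e x, At e x → VC 1 (g' e) (e x))
    (hp : IsPull k φ g g') : IsPull k φ (DDX k w g) (DDX k w' g') :=
  (hp.dp hw hw' hφ hiso hg hg').add (hp.de hw hw' hφ hiso hg hg')

/-- the Hermitian product under a holomorphic isometry -/
theorem hpX_map (hw : IsKahler w) (hw' : IsKahler w')
    (hφ : ContMDiff 𝓘(ℂ, Cm n) 𝓘(ℂ, Cm n) ω φ)
    (hiso : ∀ e x, At e x → D.pullM φ w' e (e x) = w e (e x))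
    (hp : IsPull k φ g g') (hq : IsPull k φ h h') (hx : At e x) (hx' : At e' (φ x)) :
    hpX k w g h e (e x) = hpX k w' g' h' e' (e' (φ x)) *
      ((‖(D.jacF φ e e' x).det‖ ^ 2 : ℝ) : ℂ) := by
  simp only [hpX, hp_eq_G]
  have hf := form_map hw' hφ hiso hx hx'
  refine G.hp_change (c := (D.jacF φ e e' x).det ^ k) (unit_map hw hw' hφ hiso hx hx') hf ?_
    (hp e e' x hx hx') (hq e e' x hx hx')
  show (w e (e x)).det ^ k = _ * (w' e' (e' (φ x))).det ^ k
  rw [G.det_change hf, mul_pow, norm_pow, ← Complex.ofReal_pow, ← pow_mul, ← pow_mul,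
    mul_comm 2 k]

/-- the law near a point, from the law at all points -/
theorem isPull_self {g : Frm n X} (hg : IsSec k g) : IsPull k (fun x : X => x) g g :=
  fun e e' x hx hx' => hg.change e e' x hx hx'

end Vale.Agent.P299.IX
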